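import Vale.Agent.P331.LogLog.Final

/-!
Hand-in: one sample per element gives a ratio of order `1 / log log rank` on every finite matroid
against the almighty adversary.
-/

namespace Vale.Agent.Results.P331.LogLogRankAlmighty

open Finset MeasureTheory Vale.Agent.P331
open scoped NNReal ENNReal

theorem result :
    ∀ (α : Type) [Fintype α] [DecidableEq α] (M : Matroid α) (L T : ℕ),
      (∀ I : Finset α, M.Indep (I : Set α) → I.card ≤ 2 ^ L) → L ≤ 2 ^ (T + 1) →
      ∃ rule : (α → ℝ≥0) → (Fin (T + 1) × Fin 3) ⊕ Fin 3 → Finset α → α → ℝ≥0 → Bool,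
        (∀ k A e, Measurable fun p : (α → ℝ≥0) × ℝ≥0 => rule p.1 k A e p.2) ∧
        ∀ D : α → Measure ℝ≥0, (∀ a, IsProbabilityMeasure (D a)) →
        ∀ order : (α → ℝ≥0 × ℝ≥0) → (Fin (T + 1) × Fin 3) ⊕ Fin 3 → List α,
          (∀ ω k, (order ω k).Nodup ∧ ∀ a, a ∈ order ω k) →
          (∀ ω k, M.Indep ((accepted rule (fun a => (ω a).1) k (fun a => (ω a).2)
            (order ω k) ∅ : Finset α) : Set α)) ∧
          ∫⁻ ω, (opt M (fun a => (ω a).2) : ℝ≥0∞) ∂Measure.pi (fun a => (D a).prod (D a)) ≤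
            32 * (3 * (T : ℝ≥0∞) + 6) * ((∑ k : (Fin (T + 1) × Fin 3) ⊕ Fin 3,
              ∫⁻ ω, ((∑ a ∈ accepted rule (fun a => (ω a).1) k (fun a => (ω a).2)
                (order ω k) ∅, (ω a).2 : ℝ≥0) : ℝ≥0∞)
                ∂Measure.pi (fun a => (D a).prod (D a))) / (3 * (T : ℝ≥0∞) + 6)) := by
  intro α _ _ M L T hL hT
  refine ⟨LogLog.rule M L T, LogLog.measurable_rule M L T, fun D hD order ho =>
    ⟨fun ω k => LogLog.indep_accepted M L T _ _ k _, ?_⟩⟩
  rw [mul_assoc, ENNReal.mul_div_cancel (by simp) (by finiteness)]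
  refine (LogLog.integral_opt_le_allGain M L T hL hT D).trans (mul_le_mul' le_rfl ?_)
  set P := Measure.pi fun a => (D a).prod (D a)
  calc ∫⁻ ω, (LogLog.allGain M L T ω : ℝ≥0∞) ∂P
      = ∫⁻ ω, ∑ k, (LogLog.optionGain M L T ω k : ℝ≥0∞) ∂P := by
        simp only [← LogLog.sum_optionGain, ENNReal.ofNNReal_finsetSum]
    _ = ∑ k, ∫⁻ ω, (LogLog.optionGain M L T ω k : ℝ≥0∞) ∂P :=
        lintegral_finsetSum _ fun k _ => (LogLog.measurable_optionGain M L T k).coe_nnreal_ennreal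
    _ ≤ _ := sum_le_sum fun k _ => lintegral_mono fun ω =>
        ENNReal.coe_le_coe.2 (LogLog.optionGain_le M L T ω k (ho ω k).2)

end Vale.Agent.Results.P331.LogLogRankAlmighty
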